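import Vale.Agent.P066.Two.Walk

namespace Vale.Agent.Results.P066.CliqueThree

/-- The Shareshian-Wachs conjecture for natural unit interval graphs without four pairwise adjacent
vertices: all elementary coefficients lie in `ℕ[q]`. -/
theorem result : ∀ (n : ℕ) (h : Fin n → ℕ), Vale.Agent.P066.IsHess n h →
    (∀ i : Fin n, h i ≤ (i : ℕ) + 3) → Vale.Agent.P066.EPositive h :=
  fun _ _ hh h3 => Vale.Agent.P066.Two.ePositive_of_le_add_three hh h3

end Vale.Agent.Results.P066.CliqueThree
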