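import Vale.Agent.P066.Family

namespace Vale.Agent.Results.P066.TriangleChains

/-- `e`-positivity with coefficients in `ℕ[q]` for reducible graphs and for short triangle chains. -/
theorem result :
    (∀ (n : ℕ) (h : Fin n → ℕ), Vale.Agent.P066.Reducible h → Vale.Agent.P066.EPositive h) ∧
      ∀ (n : ℕ) (h : Fin n → ℕ), Vale.Agent.P066.ShortChains h → Vale.Agent.P066.EPositive h :=
  ⟨fun _ _ hr => hr.ePositive, fun _ _ F => F.ePositive⟩

end Vale.Agent.Results.P066.TriangleChains
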